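import Vale.Agent.P280.N.C01

/-! P280, plan N: package E08, the proof (needs only `hull_field` and `neg_max`). -/

open DirectSum Vale.Agent.P280.T Vale.Agent.P280.H127

namespace Vale.Agent.P280.H79

open Vale.Agent.P280.N

variable {r : ℕ} {R : Type} [CommRing R] [IsDomain R] [Algebra ℂ R]
  {𝒜 : ℕ × (Fin r → ℤ) → Submodule ℂ R} [GradedAlgebra 𝒜]

omit [GradedAlgebra 𝒜] in
/-- A field acting on `R` diagonally acts diagonally on the homogeneous rational functions. -/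
theorem diag_HK {β : (Fin r → ℤ) →+ ℤ} {D : VF R} {α : ℂ}
    (hD : ∀ d m, ∀ h ∈ 𝒜 (d, m), D (iK h) = -(((d : ℂ) * α + (β m : ℂ)) • iK h))
    {d : ℤ} {m : Fin r → ℤ} {x : FractionRing R} (hx : HK 𝒜 d m x) :
    D x = -(((d : ℂ) * α + (β m : ℂ)) • x) := by
  obtain ⟨a, b, n, n', f, hf, g, hg, hg0, h1, h2, h3⟩ := hx
  have h4 := vf_of_mul D h1
  rw [hD a n f hf, hD b n' g hg, ← h1] at h4
  have hg1 : (iK g : FractionRing R) ≠ 0 := iK_ne_zero hg0
  apply mul_left_cancel₀ hg1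
  rw [h4, h2, h3]
  simp only [Algebra.smul_def, map_sub, Int.cast_sub, Int.cast_natCast, map_add, map_mul]
  ring

/-- The bracket with a diagonal field. -/
theorem diag_lie {β : (Fin r → ℤ) →+ ℤ} {D : VF R} {α : ℂ}
    (hD : ∀ d m, ∀ h ∈ 𝒜 (d, m), D (iK h) = -(((d : ℂ) * α + (β m : ℂ)) • iK h))
    {lam : Fin r → ℤ} {v : VF R} (hv : HV 𝒜 lam v) : ⁅D, v⁆ = (β lam : ℂ) • v := by
  refine sub_eq_zero.1 (vf_eq_zero_hom (𝒜 := 𝒜) fun d m a ha => ?_)
  rw [Derivation.sub_apply, Derivation.commutator_apply, Derivation.smul_apply,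
    diag_HK hD (hv d m a ha), hD d m a ha, Derivation.map_neg, Derivation.map_smul]
  simp only [Algebra.smul_def, map_sub, Int.cast_sub, Int.cast_natCast, map_add, map_mul]
  ring

section E
variable {N : ℤ} {lam : Fin r → ℤ} {m : ℕ} {e : Fin m → Fin r → ℤ} {L0 : (Fin r → ℤ) →+ ℤ}
  {β : Fin m → Bool → ((Fin r → ℤ) →+ ℤ)} {E F : Fin m → Bool → VF R}

/-- A global field of weight `ω` with `L0 ω > L0 lam` is zero. -/
theorem zero_of_L0 (H : Hyp 𝒜) (hF : Face 𝒜 N lam m e L0 β E F) {D : VF R} (hD : Glob D)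
    {ω : Fin r → ℤ} (hv : HV 𝒜 ω D) (h : L0 lam < L0 ω) : D = 0 := by
  by_contra hne
  exact absurd (hull_field H L0 hF.pos.le hF.max hD hv hne) (not_le.2 h)

/-- A global field of weight `ω` with `L0 ω < -L0 lam` is zero. -/
theorem zero_of_L0' (H : Hyp 𝒜) (hF : Face 𝒜 N lam m e L0 β E F) {D : VF R} (hD : Glob D)
    {ω : Fin r → ℤ} (hv : HV 𝒜 ω D) (h : L0 ω < -L0 lam) : D = 0 := by
  by_contra hne
  have h1 := hull_field H (-L0) hF.pos.le (fun μ hμ => by
    have := neg_max H L0 hF.pos hF.max μ hμ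
    rw [AddMonoidHom.neg_apply]
    omega) hD hv hne
  rw [AddMonoidHom.neg_apply] at h1
  omega

/-- A global field of weight `lam + 2 e j - e i` is zero. -/
theorem zero_of_two (H : Hyp 𝒜) (hF : Face 𝒜 N lam m e L0 β E F) {i j : Fin m} (hij : i ≠ j)
    {D : VF R} (hD : Glob D) {ω : Fin r → ℤ} (hω : ω = lam + (2 : ℤ) • e j - e i)
    (hv : HV 𝒜 ω D) : D = 0 := by
  by_contra hne
  have hN := hF.N0
  have hp := hF.pos
  have h1 := hull_field H (N • L0 + β j true) (a := N * L0 lam + 2 * N)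
    (by nlinarith) (fun μ hμ => by
      rw [AddMonoidHom.add_apply, AddMonoidHom.smul_apply, smul_eq_mul]
      have h2 := abs_le.1 (hF.abs_b_le j true hμ)
      have h3 := hF.max μ hμ
      rcases h3.lt_or_eq with h4 | h4
      · nlinarith
      · rw [h4]
        omega) hD hv hne
  rw [AddMonoidHom.add_apply, AddMonoidHom.smul_apply, smul_eq_mul, hω, map_sub, map_add, map_sub,
    map_add, map_zsmul, map_zsmul, hF.lze, hF.lze, hF.bl, hF.be, hF.be, if_pos rfl,
    if_neg hij, sg_true] at h1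
  simp at h1
  omega

/-- A global field of weight `lam + e j + e l - e i` is zero. -/
theorem zero_of_three (H : Hyp 𝒜) (hF : Face 𝒜 N lam m e L0 β E F) {i j l : Fin m} (hij : i ≠ j)
    (hil : i ≠ l) (hjl : j ≠ l)
    {D : VF R} (hD : Glob D) {ω : Fin r → ℤ} (hω : ω = lam + e j + e l - e i)
    (hv : HV 𝒜 ω D) : D = 0 := by
  by_contra hne
  have hN := hF.N0
  have hp := hF.pos
  have h1 := hull_field H (N • L0 + (β j true + β l true)) (a := N * L0 lam + 3 * N)
    (by nlinarith) (fun μ hμ => by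
      rw [AddMonoidHom.add_apply, AddMonoidHom.smul_apply, smul_eq_mul, AddMonoidHom.add_apply]
      have h2 := abs_le.1 (hF.abs_b_le j true hμ)
      have h2' := abs_le.1 (hF.abs_b_le l true hμ)
      have h3 := hF.max μ hμ
      rcases h3.lt_or_eq with h4 | h4
      · nlinarith
      · rw [h4]
        rcases hF.top μ hμ h4 with h5 | ⟨k, s, h5⟩
        · rw [h5, hF.bl, hF.bl]
          omega
        · rw [h5]
          by_cases hkj : k = j
          · subst hkj
            rw [hF.b_vx_ne hjl]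
            have h6 : β k true (vx lam e k s) ≤ 2 * N := (abs_le.1 (hF.abs_b_le k true (by
              rw [← h5]; exact hμ))).2
            omega
          · rw [hF.b_vx_ne hkj]
            have h6 : β l true (vx lam e k s) ≤ 2 * N := (abs_le.1 (hF.abs_b_le l true (by
              rw [← h5]; exact hμ))).2
            omega) hD hv hne
  rw [AddMonoidHom.add_apply, AddMonoidHom.smul_apply, smul_eq_mul, AddMonoidHom.add_apply, hω] at h1
  simp only [map_sub, map_add, hF.lze, hF.bl, hF.be, if_true, if_neg hij, if_neg hil,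
    if_neg hjl, if_neg (Ne.symm hjl), sg_true, add_zero, sub_zero, one_mul] at h1
  omega

/-- The bracket `[w_j, F_i]` kills `w_l`, `l ≠ i`. -/
theorem lie_zero_of_ne (H : Hyp 𝒜) (hF : Face 𝒜 N lam m e L0 β E F) {i j l : Fin m}
    (hij : i ≠ j) (hil : i ≠ l) : ⁅⁅E j true, F i true⁆, E l true⁆ = 0 := by
  have hj := hF.root j true
  have hi := hF.root i true
  have hl := hF.root l true
  have hg : Glob ⁅⁅E j true, F i true⁆, E l true⁆ := (hj.globE.lie hi.globF).lie hl.globE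
  have hv := (hj.hvE.lie hi.hvF).lie hl.hvE
  by_cases hjl : j = l
  · subst hjl
    exact zero_of_two H hF hij hg (by rw [vx, vx, sg_true]; abel_nf) hv
  · exact zero_of_three H hF hij hil hjl hg (by rw [vx, vx, vx, sg_true]; abel_nf) hv

/-- `[[w_j, F_i], w_i] = N w_j`. -/
theorem lie_self (H : Hyp 𝒜) (hF : Face 𝒜 N lam m e L0 β E F) {i j : Fin m} (hij : i ≠ j) :
    ⁅⁅E j true, F i true⁆, E i true⁆ = (N : ℂ) • E j true := by
  have hj := hF.root j true
  have hi := hF.root i true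
  obtain ⟨α, hα⟩ := hi.br
  have h1 : ⁅E j true, E i true⁆ = 0 := by
    refine zero_of_L0 H hF (hj.globE.lie hi.globE) (hj.hvE.lie hi.hvE) ?_
    rw [map_add, hF.L0_vx, hF.L0_vx]
    have := hF.pos
    omega
  have h2 := diag_lie hα hj.hvE
  rw [hF.b_vx_ne (Ne.symm hij)] at h2
  rw [vlie_lie, h1, vlie_zero, sub_zero, ← vlie_skew (F i true) (E i true), vlie_neg,
    vlie_skew, h2]

/-- The bracket `[w_i, F_j]` with `F_i`. -/
theorem lie_F (H : Hyp 𝒜) (hF : Face 𝒜 N lam m e L0 β E F) {i j : Fin m} (hij : i ≠ j) :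
    ⁅⁅E i true, F j true⁆, F i true⁆ = -((N : ℂ) • F j true) := by
  have hj := hF.root j true
  have hi := hF.root i true
  obtain ⟨α, hα⟩ := hi.br
  have h1 : ⁅F j true, F i true⁆ = 0 := by
    refine zero_of_L0' H hF (hj.globF.lie hi.globF) (hj.hvF.lie hi.hvF) ?_
    rw [map_add, map_neg, map_neg, hF.L0_vx, hF.L0_vx]
    have := hF.pos
    omega
  have h2 := diag_lie hα hj.hvF
  rw [map_neg, hF.b_vx_ne (Ne.symm hij)] at h2
  rw [vlie_lie, h1, vlie_zero, zero_sub, vlie_skew, h2]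
  push_cast
  exact neg_smul (N : ℂ) (F j true)

/-- E08. The fields of the exchange root `e i - e j`. -/
theorem exch (H : Hyp 𝒜) (hF : Face 𝒜 N lam m e L0 β E F) {i j : Fin m} (hij : i ≠ j) :
    ∃ X Y : VF R, Glob X ∧ Glob Y ∧ HV 𝒜 (e i - e j) X ∧ HV 𝒜 (e j - e i) Y ∧
      ⁅Y, E i true⁆ = E j true ∧ (∀ l, l ≠ i → ⁅Y, E l true⁆ = 0) ∧
      (∀ l, l ≠ j → ⁅X, E l true⁆ = 0) ∧ (∃ s : ℂ, s ≠ 0 ∧ ⁅X, E j true⁆ = s • E i true) ∧
      ∀ v : VF R, HV 𝒜 lam v → ⁅⁅X, Y⁆, v⁆ = 0 := by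
  have hj := hF.root j true
  have hi := hF.root i true
  have hN : (N : ℂ) ≠ 0 := by
    have := hF.N0
    exact_mod_cast this.ne'
  refine ⟨⁅E i true, F j true⁆, (N : ℂ)⁻¹ • ⁅E j true, F i true⁆, hi.globE.lie hj.globF,
    (hj.globE.lie hi.globF).smulC _, (hi.hvE.lie hj.hvF).cast ?_,
    ((hj.hvE.lie hi.hvF).smulC _).cast ?_, ?_, ?_, ?_, ⟨(N : ℂ), hN, ?_⟩, ?_⟩
  · rw [vx, vx, sg_true, one_smul, one_smul]
    abel
  · rw [vx, vx, sg_true, one_smul, one_smul]
    abel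
  · rw [vsmul_lie, lie_self H hF hij, smul_smul, inv_mul_cancel₀ hN, one_smul]
  · intro l hl
    rw [vsmul_lie, lie_zero_of_ne H hF hij (Ne.symm hl), smul_zero]
  · intro l hl
    exact lie_zero_of_ne H hF (Ne.symm hij) (Ne.symm hl)
  · exact lie_self H hF (Ne.symm hij)
  · intro v hv
    obtain ⟨α, hα⟩ := hi.br
    obtain ⟨α', hα'⟩ := hj.br
    have h0 : ⁅⁅E i true, F j true⁆, ⁅E j true, F i true⁆⁆ =
        (N : ℂ) • (⁅E i true, F i true⁆ - ⁅E j true, F j true⁆) := by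
      have h1 : ⁅⁅E i true, F j true⁆, ⁅E j true, F i true⁆⁆ =
          ⁅⁅⁅E i true, F j true⁆, E j true⁆, F i true⁆ +
            ⁅E j true, ⁅⁅E i true, F j true⁆, F i true⁆⁆ := by
        rw [vlie_lie ⁅E i true, F j true⁆ (E j true) (F i true)]
        abel
      rw [h1, lie_self H hF (Ne.symm hij), lie_F H hF hij, vlie_neg, vlie_smul, vsmul_lie,
        smul_sub, sub_eq_add_neg]
    have h2 := diag_lie hα hv
    have h3 := diag_lie hα' hv
    rw [vlie_smul, h0, vsmul_lie, vsmul_lie, vsub_lie, h2, h3, hF.bl, hF.bl, sub_self,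
      smul_zero, smul_zero]

end E

end Vale.Agent.P280.H79
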