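import Vale.Agent.P280.H79.Homog
import Vale.Agent.P280.H490.Along
import Vale.Agent.P280.H155.Nef0
import Vale.Agent.P280.N.B01
import Vale.Agent.P280.N.C07

/-! P280, stage 2: reduction of an arbitrary fixed point to a dominant one. -/

open DirectSum Vale.Agent.P280.T Vale.Agent.P280.H127

namespace Vale.Agent.P280.H79

open Vale.Agent.P280.N Vale.Agent.P280.H490

variable {r : ℕ} {R : Type} [CommRing R] [IsDomain R] [Algebra ℂ R]
  {𝒜 : ℕ × (Fin r → ℤ) → Submodule ℂ R} [GradedAlgebra 𝒜]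

/-- A field which does not vanish at the end of a curve does not vanish along it. -/
theorem ne_of_val' {y y' : FP 𝒜} {b : Fin r → ℤ} {n : ℕ} {φ : R →ₐ[ℂ] Polynomial ℂ}
    (hφ : Curve y y' b n φ) {ω : Fin r → ℤ} {D : VF R} (hD : Glob D) (hDv : HV 𝒜 ω D)
    (h : ¬ ValV y'.q D 0) : ∃ x g : R, D (iK x) = iK g ∧ φ g ≠ 0 := by
  obtain ⟨D', rfl, hD'⟩ := hD.exists_hder hDv
  by_contra hcon
  push Not at hcon
  apply h
  have h1 : y'.q.toLinearMap.comp (D' : R →ₗ[ℂ] R) = 0 := by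
    apply linearMap_ext_graded 𝒜
    rintro ⟨d, m⟩ x hx
    change y'.q (D' x) = 0
    rw [← hφ.ev' d (m - ω) (D' x) (hD' d m x hx), hcon x (D' x) (toVF_iK D' x),
      Polynomial.coeff_zero]
  intro x
  have h2 : y'.q (D' x) = 0 := LinearMap.congr_fun h1 x
  rw [toVF_iK, LinearMap.zero_apply, ← h2]
  exact Val.iK _

/-- A tangent weight at one end of a curve gives one at the other end, in the same class. -/
theorem pi_other (H : Hyp 𝒜) {y y' : FP 𝒜} {b : Fin r → ℤ} {n : ℕ} {φ : R →ₐ[ℂ] Polynomial ℂ}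
    (hφ : Curve y y' b n φ) {ω : Fin r → ℤ} (hne : ∀ k : ℤ, ω ≠ k • b) (hω : y.Pi ω) :
    ∃ k : ℕ, y'.Pi (ω - k • b) := by
  obtain ⟨φ', hφ', -⟩ := exists_rev H hφ
  obtain ⟨t, ht, htw, htc⟩ := hω
  obtain ⟨δ, hδ, hdeg, htop⟩ := exists_lift H hφ' ht htw
  obtain ⟨k, -, -, -, hk⟩ := along_pi (a := -b) (μ := ω) (j := 0) hφ'.ev hδ
    (fun d m h hh hne => by
      obtain ⟨i, -, hi, hc⟩ := hdeg d m h hh hne
      exact ⟨i, hi, hc⟩)
    (fun k h1 => hne (-k) (by rw [h1, neg_smul, smul_neg]))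
    (by
      by_contra hcon
      push Not at hcon
      obtain ⟨d, m, h, hh, h1⟩ := htc 0
      apply h1
      rw [← htop d m h hh, hcon h, Polynomial.coeff_zero, zero_mul, zero_mul])
    (fun h i hi => absurd hi (Nat.not_lt_zero i))
  refine ⟨k, ?_⟩
  rw [smul_neg, ← sub_eq_add_neg, natCast_zsmul] at hk
  exact hk

omit [GradedAlgebra 𝒜] in
theorem root0_of_root {N : ℤ} {a : Fin r → ℤ} {β : (Fin r → ℤ) →+ ℤ} {E F : VF R}
    (hr : Root 𝒜 N a β E F) : Root0 𝒜 N a β E F :=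
  ⟨hr.globE, hr.globF, hr.hvE, hr.hvF, hr.two, hr.br⟩

/-- **The move.** The end `y'` of the curve from `y` in the direction `-a`, `a` a vertex: if all
weights at `y'` are realised, so are those at `y`. -/
theorem real_move (H : Hyp 𝒜) {N : ℤ} (hN : 0 < N) {a : Fin r → ℤ} {β : (Fin r → ℤ) →+ ℤ}
    {E F : VF R} (hr : Root 𝒜 N a β E F) {y y' : FP 𝒜} {n : ℕ} {φ : R →ₐ[ℂ] Polynomial ℂ}
    (hφ : Curve y y' (-a) n φ) {ω : Fin r → ℤ} (hω : y.Pi ω) (hne : ∀ k : ℤ, ω ≠ k • a)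
    (hR : ∀ μ, y'.Pi μ → Real y' μ) : Real y ω := by
  have hNC : (N : ℂ) ≠ 0 := by exact_mod_cast hN.ne'
  have hne' : ∀ k : ℤ, ω ≠ k • (-a) := fun k h1 => hne (-k) (by rw [h1, smul_neg, neg_smul])
  obtain ⟨κ, hκ⟩ := hr.int ω ⟨y, hω⟩
  have hcl : ∀ j : ℤ, Wt 𝒜 (ω + j • a) → |κ + 2 * j| ≤ 1 := by
    intro j hj
    have h1 := hr.bd (ω + j • a) hj
      (fun h2 => hne (1 - j) (by rw [sub_smul, one_smul]; exact eq_sub_of_add_eq h2))
      (fun h2 => hne (-1 - j) (by
        rw [sub_smul, neg_smul, one_smul]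
        exact eq_sub_of_add_eq h2))
    rw [map_add, map_zsmul, hr.two, hκ, smul_eq_mul] at h1
    have h2 : N * κ + j * (2 * N) = N * (κ + 2 * j) := by ring
    rw [h2, abs_mul, abs_of_pos hN] at h1
    by_contra h3
    push Not at h3
    have h4 : (2 : ℤ) ≤ |κ + 2 * j| := h3
    nlinarith
  have hclN : ∀ k : ℕ, Wt 𝒜 (ω + k • (-a)) → |κ - 2 * k| ≤ 1 := by
    intro k hk
    have h1 := hcl (-(k : ℤ)) (by
      rw [neg_smul, natCast_zsmul, ← smul_neg]
      exact hk)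
    rwa [mul_neg, ← sub_eq_add_neg] at h1
  have hclP : ∀ k : ℕ, Wt 𝒜 (ω - k • (-a)) → |κ + 2 * k| ≤ 1 := by
    intro k hk
    refine hcl (k : ℤ) ?_
    rw [smul_neg, sub_neg_eq_add] at hk
    rw [natCast_zsmul]
    exact hk
  have hκ1 : |κ| ≤ 1 := by
    have h1 := hcl 0 (by rw [zero_smul, add_zero]; exact ⟨y, hω⟩)
    simpa using h1
  obtain ⟨k, hk⟩ := pi_other H hφ hne' hω
  have hk1 := hclP k ⟨y', hk⟩
  rw [abs_le] at hκ1 hk1
  by_cases h0 : k = 0
  · subst h0
    rw [zero_smul, sub_zero] at hk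
    obtain ⟨D, hD, hDv, hD0⟩ := hR ω hk
    refine ⟨D, hD, hDv, ?_⟩
    by_cases hκ2 : κ = 1
    · refine curve_u' H hφ hD hDv hne' hω (k0 := 0) ?_ (ne_of_val' hφ hD hDv hD0)
      intro j hj
      have h1 := abs_le.1 (hclP j ⟨y', hj⟩)
      omega
    · intro h1
      obtain ⟨j, hj, hj1⟩ := curve_ta H hφ hD hDv hne' h1 hD0
      have h2 := abs_le.1 (hclN j ⟨y, hj1⟩)
      omega
  · have hκ2 : κ = -1 := by omega
    have hk2 : k = 1 := by omega
    subst hk2 hκ2
    by_cases hy' : y'.Pi ω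
    · obtain ⟨D, hD, hDv, hD0⟩ := hR ω hy'
      refine ⟨D, hD, hDv, fun h1 => ?_⟩
      obtain ⟨j, hj, hj1⟩ := curve_ta H hφ hD hDv hne' h1 hD0
      have h2 := abs_le.1 (hclN j ⟨y, hj1⟩)
      omega
    · have hk3 : y'.Pi (ω + a) := by
        rw [one_smul, sub_neg_eq_add] at hk
        exact hk
      obtain ⟨D', hD', hDv', hD0'⟩ := hR _ hk3
      have hDv : HV 𝒜 ω ⁅F, D'⁆ := by
        have h1 := hr.hvF.lie hDv'
        have h2 : -a + (ω + a) = ω := by abel
        rwa [h2] at h1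
      have hD : Glob ⁅F, D'⁆ := hr.globF.lie hD'
      have hED : ⁅E, D'⁆ = 0 := by
        by_contra h1
        have h2 := hull_field H β (a := 2 * N) (by omega) (fun μ hμ => by
          by_cases h3 : μ = a
          · rw [h3, hr.two]
          · by_cases h4 : μ = -a
            · rw [h4, map_neg, hr.two]
              omega
            · have h5 := (abs_le.1 (hr.bd μ hμ h3 h4)).2
              omega) (hr.globE.lie hD') (hr.hvE.lie hDv') h1
        rw [map_add, map_add, hr.two, hκ] at h2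
        omega
      have hEFD : ⁅E, ⁅F, D'⁆⁆ = (N : ℂ) • D' := by
        have h1 := vf_jacobi E F D'
        rw [hED, vf_lie_zero, sub_zero] at h1
        rw [← h1, (root0_of_root hr).lie_lie hD' hDv', map_add, hr.two, hκ]
        congr 1
        push_cast
        ring
      refine ⟨⁅F, D'⁆, hD, hDv, ?_⟩
      refine curve_u' H hφ hD hDv hne' hω (k0 := 1) ?_ ?_
      · intro j hj
        have h1 := abs_le.1 (hclP j ⟨y', hj⟩)
        by_contra h2
        have h3 : j = 0 := by omega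
        subst h3
        rw [zero_smul, sub_zero] at hj
        exact hy' hj
      · refine ne_of_bracket H hφ (w := E) hr.globE (Or.inr (by rw [neg_neg]; exact hr.hvE)) hD hDv
          (Or.inr fun h1 => hD0' ?_)
        rw [hEFD] at h1
        have h2 := h1.smulC ((N : ℂ)⁻¹)
        rw [smul_smul, inv_mul_cancel₀ hNC, one_smul, smul_zero] at h2
        exact h2

omit [IsDomain R] in
/-- The values of a functional on the characters of the fixed points are bounded below. -/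
theorem nu_bound (H : Hyp 𝒜) (c : (Fin r → ℤ) →+ ℤ) : ∃ K : ℤ, ∀ y : FP 𝒜, K ≤ c y.ν := by
  obtain ⟨K, hK⟩ := ((finite_weights H.hX).image c).bddBelow
  refine ⟨K, fun y => hK ⟨y.ν, ?_, rfl⟩⟩
  obtain ⟨f, hf, hfne⟩ := exists_deg_one_ne H.hX.gen y.nv y.fix
  exact ⟨f, hf, fun h0 => hfne (by rw [h0, map_zero])⟩

/-- A vertex is realised. -/
theorem real_vx (H : Hyp 𝒜) {a : Fin r → ℤ} (ha : Vx 𝒜 a) {y : FP 𝒜} (hy : y.Pi a) :
    Real y a := by
  obtain ⟨N, β, E, F, hN, hr⟩ := N.C07.exists_root_one H ha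
  exact ⟨E, hr.globE, hr.hvE, hr.atE y hy⟩

/-- **The reduction to dominant fixed points.** -/
theorem real_all (H : Hyp 𝒜) (c : (Fin r → ℤ) →+ ℤ) (hc : ∀ μ, Wt 𝒜 μ → c μ ≠ 0)
    (hdom : ∀ z : FP 𝒜, (∀ a, Vx 𝒜 a → z.Pi a → 0 < c a) → ∀ ω, z.Pi ω → Real z ω) :
    ∀ (z : FP 𝒜) (ω : Fin r → ℤ), z.Pi ω → Real z ω := by
  obtain ⟨K, hK⟩ := nu_bound H c
  have key : ∀ (m : ℕ) (z : FP 𝒜), c z.ν - K ≤ m → ∀ ω, z.Pi ω → Real z ω := by
    intro m
    induction m with
    | zero =>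
      intro z hz
      refine hdom z fun a hva ha => ?_
      by_contra hca
      have hca' : c a < 0 := lt_of_le_of_ne (not_lt.1 hca) (hc a ⟨z, ha⟩)
      obtain ⟨z', n, φ, hφ⟩ := exists_curve H z ha
      have h1 := hK z'
      rw [hφ.nu, map_add, map_nsmul, nsmul_eq_mul] at h1
      have h2 : (1 : ℤ) ≤ n := by exact_mod_cast hφ.n1
      push_cast at hz
      nlinarith
    | succ m ih =>
      intro z hz
      by_cases hd : ∀ a, Vx 𝒜 a → z.Pi a → 0 < c a
      · exact hdom z hd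
      push Not at hd
      obtain ⟨a, hva, ha, hca⟩ := hd
      have hca' : c a < 0 := lt_of_le_of_ne hca (hc a ⟨z, ha⟩)
      intro ω hω
      by_cases hm : ∃ k : ℤ, ω = k • (-a)
      · obtain ⟨k, hk⟩ := hm
        have hk0 : k ≠ 0 := by
          rintro rfl
          rw [zero_smul] at hk
          subst hk
          exact H.iso z.q z.ν z.nv z.fix hω
        have h1 := H.ind z.q z.ν ω a z.nv z.fix hω ha ⟨1, -k, one_ne_zero, neg_ne_zero.2 hk0, by
          rw [one_smul, hk, neg_smul, smul_neg]⟩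
        subst h1
        exact real_vx H hva hω
      push Not at hm
      obtain ⟨N, β, E, F, hN, hr⟩ := N.C07.exists_root_one H (c03_vx_neg H hva)
      obtain ⟨z', n, φ, hφ⟩ := exists_curve H z ha
      have hφ' : Curve z z' (- -a) n φ := by
        rw [neg_neg]
        exact hφ
      refine real_move H hN hr hφ' hω hm (ih z' ?_)
      rw [hφ.nu, map_add, map_nsmul, nsmul_eq_mul]
      have h2 : (1 : ℤ) ≤ n := by exact_mod_cast hφ.n1
      push_cast at hz
      nlinarith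
  intro z
  refine key (c z.ν - K).toNat z ?_
  rw [Int.toNat_of_nonneg (by have := hK z; omega)]

end Vale.Agent.P280.H79
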