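import Vale.Agent.P280.N2.Defs
import Vale.Agent.P280.H79.Move
import Vale.Agent.P280.H900.Mon
import Vale.Agent.P280.H399.Low
import Vale.Agent.P280.N.A01
import Vale.Agent.P280.N.A04
import Vale.Agent.P280.N.A14

/-! P280, stage 2, block B3: the source. -/

open DirectSum Vale.Agent.P280.T Vale.Agent.P280.H127

namespace Vale.Agent.P280.N2

open Vale.Agent.P280.N Vale.Agent.P280.N.H989 Vale.Agent.P280.H490

variable {r : ℕ} {R : Type} [CommRing R] [IsDomain R] [Algebra ℂ R]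
  {𝒜 : ℕ × (Fin r → ℤ) → Submodule ℂ R} [GradedAlgebra 𝒜]

/-- The other end of the curve in the only negative direction is the source. -/
theorem pos_of_one_neg (H : Hyp 𝒜) {c : (Fin r → ℤ) →+ ℤ} {y y' : FP 𝒜} {b : Fin r → ℤ} {n : ℕ}
    {φ : R →ₐ[ℂ] Polynomial ℂ} (hφ : Curve y y' (-b) n φ) (hb : 0 < c b)
    (hoth : ∀ ψ, y.Pi ψ → ψ ≠ -b → 0 < c ψ) : Pos c y' := by
  intro χ hχ
  by_cases hm : ∃ k : ℤ, χ = k • (-b)
  · obtain ⟨k, hk⟩ := hm
    have hb' : y'.Pi b := by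
      have h1 := hφ.ya'
      rwa [neg_neg] at h1
    have hk0 : k ≠ 0 := by
      rintro rfl
      rw [zero_smul] at hk
      subst hk
      exact H.iso y'.q y'.ν y'.nv y'.fix hχ
    have h1 := H.ind y'.q y'.ν χ b y'.nv y'.fix hχ hb' ⟨1, -k, one_ne_zero, neg_ne_zero.2 hk0, by
      rw [one_smul, hk, neg_smul, smul_neg]⟩
    rw [h1]
    exact hb.le
  · push Not at hm
    obtain ⟨k, hk⟩ := curve_wt H hφ hm hχ
    have h1 := hoth _ hk (by
      intro h2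
      refine hm (1 - k) ?_
      rw [sub_smul, one_smul]
      exact eq_sub_of_add_eq h2)
    rw [map_add, map_zsmul, map_neg, smul_eq_mul] at h1
    nlinarith

/-- A sum of weights with a positive value has a positive term. -/
theorem exists_pos_of_sum (τ : (Fin r → ℤ) →+ ℤ) : ∀ M : List (Fin r → ℤ), (∀ ω ∈ M, 0 ≤ τ ω) →
    0 < τ M.sum → ∃ ω ∈ M, 0 < τ ω ∧ τ ω ≤ τ M.sum := by
  intro M
  induction M with
  | nil =>
    intro _ h
    rw [List.sum_nil, map_zero] at h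
    exact absurd h (lt_irrefl _)
  | cons a M ih =>
    intro h h1
    rw [List.sum_cons, map_add] at h1
    have ha := h a List.mem_cons_self
    have hM : 0 ≤ τ M.sum := by
      rw [map_list_sum]
      refine List.sum_nonneg fun x hx => ?_
      obtain ⟨ω, hω, rfl⟩ := List.mem_map.1 hx
      exact h ω (List.mem_cons_of_mem _ hω)
    by_cases h2 : 0 < τ a
    · exact ⟨a, List.mem_cons_self, h2, by rw [List.sum_cons, map_add]; omega⟩
    · obtain ⟨ω, h3, h4, h5⟩ := ih (fun ω hω => h ω (List.mem_cons_of_mem _ hω)) (by omega)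
      exact ⟨ω, List.mem_cons_of_mem _ h3, h4, by rw [List.sum_cons, map_add]; omega⟩

theorem sum_nonneg' (τ : (Fin r → ℤ) →+ ℤ) (M : List (Fin r → ℤ)) (h : ∀ ω ∈ M, 0 ≤ τ ω) :
    0 ≤ τ M.sum := by
  rw [map_list_sum]
  refine List.sum_nonneg fun x hx => ?_
  obtain ⟨ω, hω, rfl⟩ := List.mem_map.1 hx
  exact h ω hω

variable {N : ℤ} {f : Fin (3 + 1) → Fin r → ℤ}
  {β : Fin (3 + 1) → Fin (3 + 1) → ((Fin r → ℤ) →+ ℤ)} {E F : Fin (3 + 1) → Fin (3 + 1) → VF R}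

/-- The functional `τ`. -/
def tau3 (β : Fin (3 + 1) → Fin (3 + 1) → ((Fin r → ℤ) →+ ℤ)) : (Fin r → ℤ) →+ ℤ :=
  β 0 3 + β 1 3 + β 2 3

omit [GradedAlgebra 𝒜] in
theorem tau3_f (hA : AC 𝒜 N 3 f β E F) :
    tau3 β (f 0) = N ∧ tau3 β (f 1) = N ∧ tau3 β (f 2) = N ∧ tau3 β (f 3) = -(3 * N) := by
  have h : ∀ k, tau3 β (f k) = β 0 3 (f k) + β 1 3 (f k) + β 2 3 (f k) := fun k => rfl
  have h1 : ∀ (i : Fin 4) (hi : i ≠ 3) (k : Fin 4), β i 3 (f k) =
      (if k = i then N else 0) - (if k = 3 then N else 0) := fun i hi k => hA.be i 3 k hi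
  refine ⟨?_, ?_, ?_, ?_⟩ <;>
  · rw [h, h1 0 (by decide), h1 1 (by decide), h1 2 (by decide)]
    simp (decide := true)
    try ring

omit [GradedAlgebra 𝒜] in
/-- The values of `τ` on the weights. -/
theorem tau3_val (hA : AC 𝒜 N 3 f β E F) {μ : Fin r → ℤ} (hμ : Wt 𝒜 μ) :
    (tau3 β μ ≤ 4 * N) ∧ (3 * N ≤ tau3 β μ → μ = -f 3 ∨ ∃ i : Fin 4, (i : ℕ) ≤ 2 ∧ μ = f i - f 3) ∧
      (0 < tau3 β μ → tau3 β μ ≤ N → ∃ i : Fin 4, (i : ℕ) ≤ 2 ∧ μ = f i) := by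
  obtain ⟨h0, h1, h2, h3⟩ := tau3_f hA
  have hN := hA.N0
  have hf : ∀ i : Fin 4, (i = 3 ∧ tau3 β (f i) = -(3 * N)) ∨
      ((i : ℕ) ≤ 2 ∧ tau3 β (f i) = N) := by
    intro i
    fin_cases i
    · exact Or.inr ⟨by decide, h0⟩
    · exact Or.inr ⟨by decide, h1⟩
    · exact Or.inr ⟨by decide, h2⟩
    · exact Or.inl ⟨rfl, h3⟩
  rcases hA.S μ hμ with h | ⟨i, j, hij, rfl⟩ | ⟨i, rfl | rfl⟩ | ⟨-, i, j, hij, rfl⟩
  · have e : tau3 β μ = 0 := by
      change β 0 3 μ + β 1 3 μ + β 2 3 μ = 0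
      rw [h 0 3 (by decide), h 1 3 (by decide), h 2 3 (by decide)]
      rfl
    refine ⟨by omega, fun h' => by omega, fun h' => by omega⟩
  · have e : tau3 β (f i - f j) = tau3 β (f i) - tau3 β (f j) := map_sub _ _ _
    rcases hf i with ⟨rfl, hi⟩ | ⟨hi0, hi⟩ <;> rcases hf j with ⟨rfl, hj⟩ | ⟨hj0, hj⟩
    · exact absurd rfl hij
    · refine ⟨by omega, fun h' => by omega, fun h' => by omega⟩
    · refine ⟨by omega, fun _ => Or.inr ⟨i, hi0, rfl⟩, fun _ h' => by omega⟩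
    · refine ⟨by omega, fun h' => by omega, fun h' => by omega⟩
  · rcases hf i with ⟨rfl, hi⟩ | ⟨hi0, hi⟩
    · refine ⟨by omega, fun h' => by omega, fun h' => by omega⟩
    · exact ⟨by omega, fun h' => by omega, fun _ _ => ⟨i, hi0, rfl⟩⟩
  · have e : tau3 β (-f i) = -tau3 β (f i) := map_neg _ _
    rcases hf i with ⟨rfl, hi⟩ | ⟨hi0, hi⟩
    · exact ⟨by omega, fun _ => Or.inl rfl, fun _ h' => by omega⟩
    · exact ⟨by omega, fun h' => by omega, fun h' => by omega⟩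
  · have e : tau3 β (f i + f j) = tau3 β (f i) + tau3 β (f j) := map_add _ _ _
    rcases hf i with ⟨rfl, hi⟩ | ⟨hi0, hi⟩ <;> rcases hf j with ⟨rfl, hj⟩ | ⟨hj0, hj⟩
    · exact absurd rfl hij
    · refine ⟨by omega, fun h' => by omega, fun h' => by omega⟩
    · refine ⟨by omega, fun h' => by omega, fun h' => by omega⟩
    · refine ⟨by omega, fun h' => by omega, fun _ h' => by omega⟩

/-- **(SRC)** The source. -/
theorem b3_src (H : Hyp 𝒜) (hA : AC 𝒜 N 3 f β E F) (c : (Fin r → ℤ) →+ ℤ)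
    (hc : ∀ μ, Wt 𝒜 μ → c μ ≠ 0) (htau : ∀ μ, Wt 𝒜 μ → 0 < c μ → 0 ≤ tau3 β μ)
    {p : FP 𝒜} (hp : Pos c p) (hno : ∀ i : Fin (3 + 1), (i : ℕ) ≤ 2 → ¬ p.Pi (f i)) :
    Real 𝒜 p (-f 3) := by
  intro t ht hw
  obtain ⟨v, hv, hvt⟩ := locv H p ht hw
  refine ⟨v, ?_, hv, hvt⟩
  have hN := hA.N0
  have htf := tau3_f hA
  by_contra hg
  obtain ⟨y, b, hyb, hcb, hoth, hnr, hpol⟩ := H399.lowest_field H c hc
    (c03_wt_ne_zero H (hA.wtn 3)) hv (fun y0 hy0 =>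
    A04.same_rgV H (pos_unique H c hc hp hy0) hv hvt.rgV) hg
  obtain ⟨y', n, φ, hφ⟩ := exists_curve H y hyb
  have hy' : Pos c y' := pos_of_one_neg H hφ hcb hoth
  have hpi : ∀ χ, p.Pi χ ↔ y'.Pi χ := (same_pi (pos_unique H c hc hp hy') H).2
  have hWb : Wt 𝒜 b := by
    have h1 := wt_neg H ⟨y, hyb⟩
    rwa [neg_neg] at h1
  have hb0 := htau b hWb hcb
  obtain ⟨d, z, hz⟩ : ∃ d z, Crd y (-b) d z := by
    obtain ⟨n, χ, -, h1, h2, -⟩ := coords H y
    obtain ⟨i, hi⟩ := (h1 _).1 hyb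
    obtain ⟨d, u, hu⟩ := h2 i
    rw [hi] at hu
    exact ⟨d, u, hu⟩
  obtain ⟨k, hk⟩ := hpol d z hz
  apply hnr
  have hI : Ind y (fun i : Fin 0 => i.elim0 : Fin 0 → VF R) (fun i : Fin 0 => i.elim0) :=
    ⟨fun i => i.elim0, fun i => i.elim0, fun i => i.elim0, fun i => i.elim0, fun i => i.elim0⟩
  have hrange : Set.range (fun i : Fin 0 => i.elim0 : Fin 0 → VF R) = ∅ :=
    Set.range_eq_empty _
  have key := H900.lemmaM H y hI c hz (fun ψ h1 h2 => (hoth ψ h1 h2).le) hcb (lam := -f 3) ?_ hv k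
    (by rw [hrange]; exact rm_empty.2 hk)
  · rw [hrange] at key
    exact rm_empty.1 key
  intro l ψ M hl hψ hM he
  have hMt : ∀ ω ∈ M, 0 ≤ tau3 β ω := fun ω hω =>
    htau ω ⟨y, (hM ω hω).1⟩ (hoth ω (hM ω hω).1 (hM ω hω).2)
  have hMs := sum_nonneg' (tau3 β) M hMt
  have hMc := sum_nonneg' c M fun ω hω => (hoth ω (hM ω hω).1 (hM ω hω).2).le
  have hl' : (1 : ℤ) ≤ l := by exact_mod_cast hl
  have e1 := congrArg (tau3 β) he
  rw [map_add, map_add, map_nsmul, map_neg, htf.2.2.2, neg_neg, nsmul_eq_mul] at e1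
  have hlb : 0 ≤ (l : ℤ) * tau3 β b := mul_nonneg (by omega) hb0
  have hψ' : Wt 𝒜 ψ := by
    rcases hψ with rfl | hψ
    · exfalso
      rw [map_zero] at e1
      omega
    · exact ⟨y, hψ.1⟩
  obtain ⟨-, h1, -⟩ := tau3_val hA hψ'
  rcases h1 (by omega) with rfl | ⟨i, hi, rfl⟩
  · have e2 := congrArg c he
    rw [map_add, map_add, map_nsmul, nsmul_eq_mul] at e2
    have h3 : 0 < (l : ℤ) * c b := mul_pos (by omega) hcb
    omega
  · have hti : tau3 β (f i) = N := by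
      fin_cases i
      · exact htf.1
      · exact htf.2.1
      · exact htf.2.2.1
      · exact absurd hi (by decide)
    have hti' : tau3 β (f i - f 3) = 4 * N := by
      rw [map_sub, hti, htf.2.2.2]
      ring
    by_cases hbt : 0 < tau3 β b
    · have h3 : tau3 β b ≤ N := by
        have h4 : tau3 β b ≤ (l : ℤ) * tau3 β b := by nlinarith
        omega
      obtain ⟨j, hj, rfl⟩ := (tau3_val hA hWb).2.2 hbt h3
      refine hno j hj ((hpi _).2 ?_)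
      have h4 := hφ.ya'
      rwa [neg_neg] at h4
    · have hb1 : tau3 β b = 0 := by omega
      rw [hb1, mul_zero] at e1
      obtain ⟨ω, h3, h4, h5⟩ := exists_pos_of_sum (tau3 β) M hMt (by omega)
      obtain ⟨j, hj, rfl⟩ := (tau3_val hA ⟨y, (hM ω h3).1⟩).2.2 h4 (by omega)
      have hmul : ∀ m : ℤ, f j ≠ m • (-b) := by
        intro m hm
        have h6 := congrArg (tau3 β) hm
        rw [map_zsmul, map_neg, hb1, neg_zero, smul_zero] at h6
        omega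
      obtain ⟨m, hm⟩ := H79.pi_other H hφ hmul (hM _ h3).1
      have h6 : tau3 β (f j - m • (-b)) = tau3 β (f j) := by
        rw [map_sub, map_nsmul, map_neg, hb1, neg_zero, smul_zero, sub_zero]
      obtain ⟨j', hj', h7⟩ := (tau3_val hA ⟨y', hm⟩).2.2 (by omega) (by omega)
      rw [h7] at hm
      exact hno j' hj' ((hpi _).2 hm)

end Vale.Agent.P280.N2
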