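import Vale.Agent.P280.N2.Defs
import Vale.Agent.P280.H79.Move
import Vale.Agent.P280.N.M5

/-! P280, stage 2, (h): from the interior weights to the theorem. -/

open DirectSum Vale.Agent.P280.T Vale.Agent.P280.H127

namespace Vale.Agent.P280.N2

open Vale.Agent.P280.N

variable {r : ℕ} {R : Type} [CommRing R] [IsDomain R] [Algebra ℂ R]
  {𝒜 : ℕ × (Fin r → ℤ) → Submodule ℂ R} [GradedAlgebra 𝒜]

/-- Multiplicity one: a field with a value which is not `0` gives all values. -/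
theorem real_of_ne (H : Hyp 𝒜) {y : FP 𝒜} {χ : Fin r → ℤ} (hy : y.Pi χ) (h : H79.Real y χ) :
    Real 𝒜 y χ := by
  obtain ⟨D, hD, hDv, hD0⟩ := h
  intro t ht hw
  exact exists_glob_of_ne H hy hD hDv hD0 ht hw

omit [GradedAlgebra 𝒜] in
theorem ne_of_real {y : FP 𝒜} {χ : Fin r → ℤ} (hy : y.Pi χ) (h : Real 𝒜 y χ) :
    H79.Real y χ := by
  obtain ⟨t, ht, hw, hc⟩ := hy
  obtain ⟨D, hD, hDv, hDt⟩ := h t ht hw
  refine ⟨D, hD, hDv, fun h0 => ?_⟩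
  obtain ⟨d, m, x, hx, hne⟩ := hc 0
  apply hne
  rw [hDt.unique h0, LinearMap.zero_apply, zero_mul, zero_mul]

/-- The boundary weights (stage 1). -/
theorem real_boundary (H : Hyp 𝒜) {ω : Fin r → ℤ} (l : (Fin r → ℤ) →+ ℤ) (hl : 0 < l ω)
    (hmax : ∀ μ, Wt 𝒜 μ → l μ ≤ l ω) (z : FP 𝒜) (hz : z.Pi ω) : Real 𝒜 z ω := by
  intro t ht hw
  obtain ⟨D, h1, h2⟩ := liftable_boundary H ⟨z, hz⟩ l hl hmax z.q z.ν z.nv z.fix hz t ht hw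
  refine ⟨toVF D, toVF_glob D, hv_toVF h1, fun x => ?_⟩
  rw [toVF_iK, ← h2 x]
  exact Val.iK _

/-- All weights at all fixed points. -/
theorem real_any (H : Hyp 𝒜)
    (hint : ∀ ω : Fin r → ℤ, Inter 𝒜 ω → ∀ z : FP 𝒜, z.Pi ω → Real 𝒜 z ω) :
    ∀ (z : FP 𝒜) (ω : Fin r → ℤ), z.Pi ω → Real 𝒜 z ω := by
  intro z ω hz
  by_cases h : Inter 𝒜 ω
  · exact hint ω h z hz
  · unfold Inter at h
    push Not at h
    obtain ⟨l, hl, hmax⟩ := h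
    exact real_boundary H l hl hmax z hz

theorem homog_final (H : Hyp 𝒜)
    (hint : ∀ ω : Fin r → ℤ, Inter 𝒜 ω → ∀ z : FP 𝒜, z.Pi ω → Real 𝒜 z ω) :
    IsHomogeneousManifold 𝒜 ∧ IsTransitive 𝒜 :=
  H79.homog_of_real H fun z ω hz => ne_of_real hz (real_any H hint z ω hz)

end Vale.Agent.P280.N2

namespace Vale.Agent.P280.N2

open Vale.Agent.P280.N

/-- The theorem, from the interior weights for a maximal torus. -/
theorem homog_all_of {r : ℕ} {R : Type} [CommRing R] [IsDomain R] [Algebra ℂ R]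
    {𝒜 : ℕ × (Fin r → ℤ) → Submodule ℂ R} [GradedAlgebra 𝒜]
    (hint : ∀ (r' : ℕ) (𝒜' : ℕ × (Fin r' → ℤ) → Submodule ℂ R) [GradedAlgebra 𝒜'], Hyp 𝒜' →
      ∀ ω : Fin r' → ℤ, Inter 𝒜' ω → ∀ z : FP 𝒜', z.Pi ω → Real 𝒜' z ω)
    (hX : IsTorusManifold 𝒜) (hN : NefOnRationalCurves 𝒜)
    (hiso : ∀ x ν, ¬ IsVertex 𝒜 x → IsFixed 𝒜 x ν → ¬ TangentWeight 𝒜 x ν 0)
    (hind : ∀ x ν ω ω', ¬ IsVertex 𝒜 x → IsFixed 𝒜 x ν → TangentWeight 𝒜 x ν ω →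
      TangentWeight 𝒜 x ν ω' → (∃ a b : ℤ, a ≠ 0 ∧ b ≠ 0 ∧ a • ω = b • ω') → ω = ω')
    (hmult : ∀ x ν ω, ¬ IsVertex 𝒜 x → IsFixed 𝒜 x ν → TangentWeight 𝒜 x ν ω →
      ∀ v v' : R →ₗ[ℂ] ℂ, IsTangent x v → HasWeight 𝒜 ν ω v → IsTangent x v' →
        HasWeight 𝒜 ν ω v' → ∃ c c' : ℂ, (c ≠ 0 ∨ c' ≠ 0) ∧ ∀ h, c * v h + c' * v' h = 0) :
    IsHomogeneousManifold 𝒜 ∧ IsTransitive 𝒜 := by
  obtain ⟨r', 𝒜', hg, π, hr, ht⟩ := exists_maxTor hX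
  have H : Hyp 𝒜' := ref_hyp hr ht hX hN hiso hind hmult
  exact ref_back hr (homog_final H (hint r' 𝒜' H))

end Vale.Agent.P280.N2
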