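import Vale.Agent.P280.N.F02
import Vale.Agent.P280.H587.Main

/-! P280, stage 2: `X` is homogeneous if all tangent vectors at the fixed points of the torus are
values of fields. -/

open DirectSum Vale.Agent.P280.T Vale.Agent.P280.H127

namespace Vale.Agent.P280.H79

open Vale.Agent.P280.N Vale.Agent.P280.H93 Vale.Agent.P280.H587

variable {r : ℕ} {R : Type} [CommRing R] [IsDomain R] [Algebra ℂ R]
  {𝒜 : ℕ × (Fin r → ℤ) → Submodule ℂ R} [GradedAlgebra 𝒜]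

/-- The weight `ω` is realised at `y`. -/
def Real (y : FP 𝒜) (ω : Fin r → ℤ) : Prop :=
  ∃ D : VF R, Glob D ∧ HV 𝒜 ω D ∧ ¬ ValV y.q D 0

/-- All weights at all fixed points are realised: `X` is homogeneous. -/
theorem homog_of_real (H : Hyp 𝒜) (h : ∀ (z : FP 𝒜) (ω : Fin r → ℤ), z.Pi ω → Real z ω) :
    IsHomogeneousManifold 𝒜 ∧ IsTransitive 𝒜 := by
  have hX := H.hX
  obtain ⟨E, hE⟩ := H587.exists_euler 𝒜
  obtain ⟨N, hdim⟩ := exists_dim hX
  have hminor : ∀ (p : R →ₐ[ℂ] ℂ) (μ : Fin r → ℤ), ¬ IsVertex 𝒜 p → IsFixed 𝒜 p μ →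
      ∃ r ∈ minorIdeal 𝒜 N, p r ≠ 0 := by
    intro p μ hp0 hp
    obtain ⟨hfinp, hNp⟩ := hdim p hp0
    refine exists_minor (𝒜 := 𝒜) hfinp hNp ?_
    intro v hv
    have h3 := H127.mem_span_weight hX hp0 hp hv
    refine (Submodule.span_le.2 ?_) h3
    rintro u ⟨hu1, χ, hu2⟩
    apply Submodule.subset_span
    by_cases hχ : TangentWeight 𝒜 p μ χ
    · let y : FP 𝒜 := ⟨p, μ, hp0, hp⟩
      have hyχ : y.Pi χ := hχ
      obtain ⟨D, hD, hDv, hD0⟩ := h y χ hyχ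
      obtain ⟨D', h1, h2⟩ := exists_der_of_glob (exists_glob_of_ne H hyχ hD hDv hD0 hu1 hu2)
      exact ⟨χ, D', h1, h2⟩
    · obtain ⟨c, hc⟩ := euler_of_not hu1 hu2 hχ hE
      refine ⟨0, c • E, isHField_euler hE c, fun h => ?_⟩
      rw [hc h, Derivation.smul_apply, map_smul, smul_eq_mul]
  have hJ : ∀ z : R →ₐ[ℂ] ℂ, ¬ IsVertex 𝒜 z → ∃ r ∈ minorIdeal 𝒜 N, z r ≠ 0 := by
    intro z hz
    by_contra hcon
    push Not at hcon
    have hhom : ∀ x ∈ minorIdeal 𝒜 N, ∀ i, ((decompose 𝒜 x) i : R) ∈ minorIdeal 𝒜 N :=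
      fun x hx i => minorIdeal_isHomogeneous N i hx
    obtain ⟨γ, x, hx0, hxJ, hx1, hx2, ν, hν, f, hf, hxf⟩ :=
      exists_lowest hX (lexHom 0) hhom ⟨z, hcon, hz⟩
    have hx : IsFixed 𝒜 x ν := by
      intro d m h hh hne
      apply lexHom_injective 0
      rw [map_nsmul, hν]
      exact hx1 d m h hh hne
    obtain ⟨r, hr, hpr⟩ := hminor x ν hx0 hx
    exact hpr (hxJ r hr)
  have hH : IsHomogeneousManifold 𝒜 := by
    intro q hq
    obtain ⟨r, hr, hqr⟩ := hJ q hq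
    obtain ⟨hfinq, hNq⟩ := hdim q hq
    exact fun v hv => fields_of_minor hfinq hNq.le hr hqr hv
  obtain ⟨g, hg⟩ := exists_generic (finite_weights hX)
  obtain ⟨p, μ, hp0, hp, -, hlow⟩ := exists_source hX H.iso g hg
  obtain ⟨l', a, -, hs⟩ := H127.exists_isSource hX hp0 hp (H.iso p μ hp0 hp) g
    (fun x ν hx0 hx hs => exists_neg hX H.iso g hg hp0 hp hlow hx0 hx hs)
  exact ⟨hH, isTransitive_of_source hX hs hH⟩

end Vale.Agent.P280.H79
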