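import Vale.Agent.P280.N.E00
import Vale.Agent.P280.N.E01
import Vale.Agent.P280.N.E06
import Vale.Agent.P280.N.A12
import Vale.Agent.P280.N.A19
import Vale.Agent.P280.N.A15
import Vale.Agent.P280.N.A04
import Vale.Agent.P280.N.A10
import Vale.Agent.P280.N.B01
import Vale.Agent.P280.N.E10b
import Vale.Agent.P280.H399.Xf

/-! P280, plan N: package E09, the proof. -/

open DirectSum Vale.Agent.P280.T Vale.Agent.P280.H127

namespace Vale.Agent.P280.H79

open Vale.Agent.P280.N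

variable {r : ℕ} {R : Type} [CommRing R] [IsDomain R] [Algebra ℂ R]
  {𝒜 : ℕ × (Fin r → ℤ) → Submodule ℂ R} [GradedAlgebra 𝒜]
variable {N : ℤ} {lam : Fin r → ℤ} {m : ℕ} {e : Fin m → Fin r → ℤ} {L0 : (Fin r → ℤ) →+ ℤ}
  {β : Fin m → Bool → ((Fin r → ℤ) →+ ℤ)} {E F : Fin m → Bool → VF R}

omit [GradedAlgebra 𝒜] in
/-- the weights killed by `L_{m-1}` -/
theorem wt_last (hF : Face 𝒜 N lam m e L0 β E F) {kl : Fin m} (hkl : (kl : ℕ) = m - 1)
    {ψ : Fin r → ℤ} (hψ : Wt 𝒜 ψ) (h0 : Lk N L0 β (m - 1) ψ = 0) : ψ = e kl ∨ ψ = -e kl := by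
  have hN := hF.N0
  obtain ⟨h1, h2⟩ := (hF.Lk_eq_zero_iff hψ (m - 1)).1 h0
  have key : ∀ (j : Fin m), β j true ψ ≠ 0 → j = kl := by
    intro j hj
    apply Fin.ext
    have h3 : ¬ (j : ℕ) < m - 1 := fun h => hj (h2 j h)
    have := j.2
    omega
  rcases hF.S ψ hψ h1 with ⟨j, s, h⟩ | ⟨i, j, s, s', hij, h⟩
  · have h3 : j = kl := key j (by
      rw [h, map_zsmul, hF.be, if_pos rfl, smul_eq_mul, sg_true, one_mul]
      exact mul_ne_zero (sg_ne_zero s) hN.ne')
    subst h3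
    cases s
    · right
      rw [h, sg_false, neg_smul, one_smul]
    · left
      rw [h, sg_true, one_smul]
  · exfalso
    have h3 : i = kl := key i (by
      rw [h, map_add, map_zsmul, map_zsmul, hF.be, hF.be, if_pos rfl, if_neg (Ne.symm hij),
        smul_eq_mul, smul_eq_mul, mul_zero, add_zero, sg_true, one_mul]
      exact mul_ne_zero (sg_ne_zero s) hN.ne')
    have h4 : j = kl := key j (by
      rw [h, map_add, map_zsmul, map_zsmul, hF.be, hF.be, if_pos rfl, if_neg hij,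
        smul_eq_mul, smul_eq_mul, mul_zero, zero_add, sg_true, one_mul]
      exact mul_ne_zero (sg_ne_zero s') hN.ne')
    exact hij (h3.trans h4.symm)

omit [GradedAlgebra 𝒜] in
theorem Lk_e_last (hF : Face 𝒜 N lam m e L0 β E F) {kl : Fin m} (hkl : (kl : ℕ) = m - 1) :
    Lk N L0 β m (e kl) = N ∧ Lk N L0 β (m - 1) (e kl) = 0 := by
  rw [hF.Lk_e, hF.Lk_e, if_pos kl.2, if_neg (by omega), hkl, Nat.sub_self, pow_zero, one_mul]
  exact ⟨rfl, rfl⟩

omit [GradedAlgebra 𝒜] in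
/-- all other weights are positive for `L_{m-1}` -/
theorem others (H : Hyp 𝒜) (hF : Face 𝒜 N lam m e L0 β E F) {kl : Fin m} (hkl : (kl : ℕ) = m - 1)
    {y : FP 𝒜} (hy : Pos (Lk N L0 β (m - 1)) y) {s : Bool} (hs : y.Pi (sg s • e kl))
    {ψ : Fin r → ℤ} (hψ : y.Pi ψ) (hne : ψ ≠ sg s • e kl) : 0 < Lk N L0 β (m - 1) ψ := by
  refine lt_of_le_of_ne (hy ψ hψ) fun h0 => ?_
  have h1 : ψ = -(sg s • e kl) := by
    rcases wt_last hF hkl ⟨y, hψ⟩ h0.symm with h | h
    · cases s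
      · rw [h, sg_false, neg_smul, one_smul, neg_neg]
      · exact absurd (by rw [h, sg_true, one_smul]) hne
    · cases s
      · exact absurd (by rw [h, sg_false, neg_smul, one_smul]) hne
      · rw [h, sg_true, one_smul]
  exact hne (H.ind y.q y.ν ψ (sg s • e kl) y.nv y.fix hψ hs
    ⟨1, -1, one_ne_zero, by decide, by rw [h1, one_smul, neg_smul, one_smul]⟩)

/-- two kinds of points: the sources, and those with the weight `-e_{m-1}` -/
theorem dich (hF : Face 𝒜 N lam m e L0 β E F) {kl : Fin m} (hkl : (kl : ℕ) = m - 1)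
    {y : FP 𝒜} (hy : Pos (Lk N L0 β (m - 1)) y) : Pos (Lk N L0 β m) y ∨ y.Pi (-e kl) := by
  by_cases h : y.Pi (-e kl)
  · exact Or.inr h
  refine Or.inl fun ψ hψ => ?_
  rcases (hy ψ hψ).lt_or_eq with h1 | h1
  · exact ((Lk_dom hF (Nat.sub_le m 1) ⟨y, hψ⟩).1 h1).le
  · rcases wt_last hF hkl ⟨y, hψ⟩ h1.symm with h2 | h2
    · rw [h2, (Lk_e_last hF hkl).1]
      exact hF.N0.le
    · exact absurd (h2 ▸ hψ) h

/-- the other end is unique -/
theorem end_unique (H : Hyp 𝒜) (hF : Face 𝒜 N lam m e L0 β E F) {kl : Fin m}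
    (hkl : (kl : ℕ) = m - 1) {y y' : FP 𝒜} (hy : Pos (Lk N L0 β (m - 1)) y)
    (hy' : Pos (Lk N L0 β (m - 1)) y') (h : y.Pi (-e kl)) (h' : y'.Pi (-e kl)) :
    SamePoint 𝒜 y.q y'.q := by
  set ε : Fin m → Bool := fun j => if j = kl then false else true with hε
  have hF' := hF.symm (Equiv.refl (Fin m)) ε
  set β' : Fin m → Bool → ((Fin r → ℤ) →+ ℤ) := fun j s => β (Equiv.refl (Fin m) j) (s == ε j)
    with hβ'
  have hsame : ∀ μ, Lk N L0 β' (m - 1) μ = Lk N L0 β (m - 1) μ := by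
    intro μ
    rw [Lk_apply, Lk_apply]
    congr 1
    rw [ts, ts]
    refine Finset.sum_congr rfl fun i _ => ?_
    by_cases hi : (i : ℕ) < m - 1
    · rw [if_pos hi, if_pos hi]
      have h1 : i ≠ kl := by
        rintro rfl
        omega
      have h2 : β' i true = β i true := by
        simp only [hβ', hε, if_neg h1, Equiv.refl_apply]
        rfl
      rw [h2]
    · rw [if_neg hi, if_neg hi]
  have hs : -e kl = sg false • e kl := by rw [sg_false, neg_smul, one_smul]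
  have key : ∀ y : FP 𝒜, Pos (Lk N L0 β (m - 1)) y → y.Pi (-e kl) → Pos (Lk N L0 β' m) y := by
    intro y hy h ψ hψ
    by_cases h1 : ψ = -e kl
    · have h2 := (Lk_e_last hF' hkl).1
      have h3 : sg (ε kl) • e (Equiv.refl (Fin m) kl) = -e kl := by
        simp only [hε, if_true, Equiv.refl_apply]
        rw [sg_false, neg_smul, one_smul]
      rw [h3] at h2
      rw [h1, h2]
      exact hF.N0.le
    · have h2 := others H hF hkl hy (s := false) (by rw [← hs]; exact h) hψ (by rw [← hs]; exact h1)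
      rw [← hsame] at h2
      exact ((Lk_dom hF' (Nat.sub_le m 1) ⟨y, hψ⟩).1 h2).le
  exact pos_unique H (Lk N L0 β' m) (fun μ hμ => Lk_ne hF' hμ) (key y hy h) (key y' hy' h')

/-- homogeneous functions of one weight on the lowest line are proportional -/
theorem prop_line (H : Hyp 𝒜) (y : FP 𝒜) (l : (Fin r → ℤ) →+ ℤ) {a : Fin r → ℤ} (ha : l a = 0)
    (ha0 : a ≠ 0) (hl : ∀ ψ, y.Pi ψ → ψ ≠ -a → 0 < l ψ) {dz : ℕ} {z : R} (hz : Crd y (-a) dz z)
    {k : ℕ} {G X : FractionRing R} (hG : HK 𝒜 0 a G) (hX : HK 𝒜 0 a X)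
    (hGr : Rg y.q (iK (z ^ k) * G)) (hXr : Rg y.q (iK z * X)) (hX0 : X ≠ 0) :
    ∃ κ : ℂ, G = κ • X := by
  have hz0 : (iK z : FractionRing R) ≠ 0 := iK_ne_zero (XF.crd_ne hz)
  have hzn : ∀ n : ℕ, (iK z : FractionRing R) ^ n ≠ 0 := fun n => pow_ne_zero n hz0
  have hlin : ∀ j : ℤ, j • a = 0 → j = 0 := fun j hj => by
    rcases smul_eq_zero.1 hj with h | h
    · exact h
    · exact absurd h ha0
  have hzk : HK 𝒜 ((k * dz : ℕ) : ℤ) (k • (dz • y.ν + -a)) (iK (z ^ k)) := by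
    have h1 := SetLike.pow_mem_graded k hz.1
    exact HK.ofR (d := k * dz) (by simpa [Prod.smul_mk] using h1)
  have hz1 : HK 𝒜 (dz : ℤ) (dz • y.ν + -a) (iK z) := HK.ofR hz.1
  -- `z X` is a unit
  have hzX : HK 𝒜 (dz : ℤ) ((dz : ℤ) • y.ν) (iK z * X) := (hz1.mul hX).cast (by ring) (by
    rw [natCast_zsmul]; abel)
  obtain ⟨n, x2, c2, hc2, hv2, e2, hm2⟩ := XF.factor H y l ha hl hz hzX hXr (by
    rw [map_zsmul, smul_eq_mul]) (mul_ne_zero hz0 hX0)
  have hn2 : n = 0 := by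
    have h1 : (n : ℤ) • a = 0 := by
      have h2 : (dz : ℤ) • y.ν = (dz : ℤ) • y.ν - (n : ℤ) • a := hm2
      have h3 := sub_eq_self.1 h2.symm
      exact h3
    exact_mod_cast hlin _ h1
  rw [hn2, pow_zero, one_mul] at e2
  by_cases hG0 : G = 0
  · exact ⟨0, by rw [hG0, zero_smul]⟩
  have hzG : HK 𝒜 ((k * dz : ℕ) : ℤ) (((k * dz : ℕ) : ℤ) • y.ν + (1 - (k : ℤ)) • a)
      (iK (z ^ k) * G) := (hzk.mul hG).cast (by ring) (by
    rw [natCast_zsmul, sub_smul, one_smul, natCast_zsmul, smul_add, smul_smul, smul_neg]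
    abel)
  obtain ⟨n1, x1, c1, hc1, hv1, e1, hm1⟩ := XF.factor H y l ha hl hz hzG hGr (by
    rw [map_add, map_zsmul, map_zsmul, ha, smul_zero, add_zero, smul_eq_mul])
    (mul_ne_zero (by rw [iK_pow]; exact hzn k) hG0)
  have hn1 : (k : ℤ) = n1 + 1 := by
    have h1 : ((n1 : ℤ) + 1 - k) • a = 0 := by
      have h2 := add_left_cancel (hm1.trans (sub_eq_add_neg _ _))
      have h3 : ((n1 : ℤ) + 1 - k) = (1 - (k : ℤ)) + n1 := by ring
      rw [h3, add_smul, h2, neg_add_cancel]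
    have := hlin _ h1
    omega
  have hn1' : k = n1 + 1 := by exact_mod_cast hn1
  have e1' : iK z * G = x1 := by
    rw [iK_pow, hn1', pow_succ, mul_assoc] at e1
    exact mul_left_cancel₀ (hzn n1) e1
  refine ⟨c1 / c2, ?_⟩
  set D := iK z * G - (c1 / c2) • (iK z * X) with hD
  have hDv : Val y.q D 0 := by
    have h1 := (e1' ▸ hv1 : Val y.q (iK z * G) c1).sub
      ((e2 ▸ hv2 : Val y.q (iK z * X) c2).smul (c1 / c2))
    rwa [div_mul_cancel₀ _ hc2, sub_self] at h1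
  have hzG' : HK 𝒜 (dz : ℤ) ((dz : ℤ) • y.ν) (iK z * G) := (hz1.mul hG).cast (by ring) (by
    rw [natCast_zsmul]; abel)
  have hD0 : D = 0 := by
    by_contra hne
    obtain ⟨n3, x3, c3, hc3, hv3, e3, hm3⟩ := XF.factor H y l ha hl hz
      (hzG'.sub (hzX.smul (c1 / c2))) hDv.rg (by rw [map_zsmul, smul_eq_mul]) hne
    have hn3 : n3 = 0 := by
      have h1 : (n3 : ℤ) • a = 0 := by
        have h2 : (dz : ℤ) • y.ν = (dz : ℤ) • y.ν - (n3 : ℤ) • a := hm3
        exact sub_eq_self.1 h2.symm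
      exact_mod_cast hlin _ h1
    rw [hn3, pow_zero, one_mul] at e3
    have h5 : Val y.q D c3 := by rw [hD, e3]; exact hv3
    exact hc3 (h5.unique hDv)
  have h4 : iK z * (G - (c1 / c2) • X) = 0 := by
    rw [mul_sub, mul_smul_comm]
    exact hD0
  exact sub_eq_zero.1 ((mul_eq_zero.1 h4).resolve_left hz0)

/-- E09. From `m` to `m - 1`. -/
theorem e_last (H : Hyp 𝒜) (hF : Face 𝒜 N lam m e L0 β E F) {y0 : FP 𝒜}
    (h0 : Pos (Lk N L0 β m) y0) (hl : y0.Pi lam) (hA : ∀ j, y0.Pi (vx lam e j true))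
    {t : R →ₗ[ℂ] ℂ} {v : VF R}
    (hv : St 𝒜 N lam L0 β E y0 t m v) : ∃ v', St 𝒜 N lam L0 β E y0 t (m - 1) v' := by
  classical
  have hm2 := hF.m2
  have hN := hF.N0
  obtain ⟨kl, hkl⟩ : ∃ kl : Fin m, (kl : ℕ) = m - 1 := ⟨⟨m - 1, by omega⟩, rfl⟩
  obtain ⟨hce, hle⟩ := Lk_e_last hF hkl
  have hene := hF.e_ne_zero kl
  have hr0 : RgV y0.q v := hv.val.rgV
  have hl0 : Pos (Lk N L0 β (m - 1)) y0 := hF.pos_mono (Nat.sub_le m 1) h0
  have hcnt : ∀ y : FP 𝒜, Pos (Lk N L0 β (m - 1)) y → ∀ i : Fin m, (i : ℕ) < m - 1 →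
      y.Pi (vx lam e i true) := fun y hy i hi => cnt H hF (hF.pos_L0 h0) hl hA (m - 1) hy i hi
  have hind : ∀ y : FP 𝒜, Pos (Lk N L0 β (m - 1)) y →
      Ind y (wf E (m - 1)) (fun i => vx lam e i.1 true) := fun y hy =>
    E10b.ind_wf hF (m - 1) (hcnt y hy)
  have hcase : ∀ (v' : VF R), HV 𝒜 lam v' → RgV y0.q v' → ∀ y : FP 𝒜, Pos (Lk N L0 β m) y →
      RM y.q (Set.range (wf E (m - 1))) v' := fun v' hv' hr y hy =>
    same_RM H (pos_unique H (Lk N L0 β m) (fun μ hμ => Lk_ne hF hμ) h0 hy) hv' (hind y0 hl0) hr.rm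
  by_cases hall : ∀ y : FP 𝒜, Low (Lk N L0 β (m - 1)) y → RM y.q (Set.range (wf E (m - 1))) v
  · exact ⟨v, hv.hv, hv.val, fun y hy => hall y ((low_iff H _ y).2 hy)⟩
  obtain ⟨y1, b, hy1, hnr, hb, hcb, hoth, hz⟩ := lpp H (Lk N L0 β (m - 1)) (Lk N L0 β m)
    (fun μ hμ => Lk_ne hF hμ) (fun μ hμ => Lk_dom hF (Nat.sub_le m 1) hμ)
    (fun y hy => hind y ((low_iff H _ y).1 hy)) hv.hv
    (fun y hy => hcase v hv.hv hr0 y hy) hall
  have hy1' := (low_iff H _ y1).1 hy1
  have hbe : b = e kl := by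
    have h1 : Lk N L0 β (m - 1) (-b) = 0 := by
      refine le_antisymm (not_lt.1 fun h => ?_) (hy1' _ hb)
      have h2 := (Lk_dom hF (Nat.sub_le m 1) ⟨y1, hb⟩).1 h
      rw [map_neg] at h2
      omega
    rcases wt_last hF hkl ⟨y1, hb⟩ h1 with h2 | h2
    · rw [← neg_neg b, h2, map_neg, hce] at hcb
      omega
    · exact neg_injective h2
  subst hbe
  have hsb : y1.Pi (sg false • e kl) := by
    rw [sg_false, neg_smul, one_smul]
    exact hb
  have hoth1 : ∀ ψ, y1.Pi ψ → ψ ≠ -e kl → 0 < Lk N L0 β (m - 1) ψ := fun ψ hψ hne =>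
    others H hF hkl hy1' hsb hψ (by rwa [sg_false, neg_smul, one_smul])
  obtain ⟨dz, z, hzc⟩ := XF.exists_crd H y1 hb
  obtain ⟨k, hk⟩ := hz dz z hzc
  have hcl := hF.Lk_lam_pos m
  -- the last vertex is a weight at `y1`
  have hχ : y1.Pi (vx lam e kl true) := by
    by_contra hχ
    refine hnr (lemmaL H y1 (hind y1 hy1') (Lk N L0 β m) hzc (fun ψ hψ hne => (hoth ψ hψ hne).le)
      (fun ψ hψ hne => ?_) (by rw [hce]; exact hN) (by rw [hce]; omega) hv.hv k hk)
    have h1 := E10b.top_le hF m hψ fun i => by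
      by_cases hi : (i.1 : ℕ) < m - 1
      · exact hne ⟨i.1, hi⟩
      · have h2 : i.1 = kl := Fin.ext (by have := i.2; omega)
        rw [h2]
        rintro rfl
        exact hχ hψ
    rw [hce]
    omega
  have hindm : Ind y1 (wf E m) (fun i => vx lam e i.1 true) := E10b.ind_wf hF m fun i _ => by
    by_cases hi : (i : ℕ) < m - 1
    · exact hcnt y1 hy1' i hi
    · have h2 : i = kl := Fin.ext (by have := i.2; omega)
      rw [h2]
      exact hχ
  have hsub : Set.range (wf E (m - 1)) ⊆ Set.range (wf E m) := by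
    rintro _ ⟨j, rfl⟩
    exact ⟨⟨j.1, j.2.trans_le (Nat.sub_le m 1)⟩, rfl⟩
  have hRMm : RM y1.q (Set.range (wf E m)) v := by
    refine lemmaL H y1 hindm (Lk N L0 β m) hzc (fun ψ hψ hne => (hoth ψ hψ hne).le)
      (fun ψ hψ hne => ?_) (by rw [hce]; exact hN) (by rw [hce]; omega) hv.hv k (hk.mono hsub)
    have h1 := E10b.top_le hF m hψ hne
    rw [hce]
    omega
  obtain ⟨ρ, g, hρ, hρv, hg, hvg⟩ := rm_hom H y1 hindm hv.hv hRMm
  set il : {i : Fin m // (i : ℕ) < m} := ⟨kl, kl.2⟩ with hil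
  have hGw : HK 𝒜 0 (e kl) (g il) := (hg il).cast rfl (by
    simp only [hil, vx, sg_true, one_smul, add_sub_cancel_left])
  -- `z ^ k * g` is regular
  have himg : Set.range (wf E (m - 1)) = wf E m '' {i | (i.1 : ℕ) < m - 1} := by
    ext w
    constructor
    · rintro ⟨j, rfl⟩
      exact ⟨⟨j.1, j.2.trans_le (Nat.sub_le m 1)⟩, j.2, rfl⟩
    · rintro ⟨j, hj, rfl⟩
      exact ⟨⟨j.1, hj⟩, rfl⟩
  have hGr : Rg y1.q (iK (z ^ k) * g il) := by
    have h1 : RM y1.q (wf E m '' {i | (i.1 : ℕ) < m - 1})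
        (∑ i, (iK (z ^ k) * g i) • wf E m i) := by
      rw [← himg]
      have h2 : ∑ i, (iK (z ^ k) * g i) • wf E m i = (iK z) ^ k • v - (iK z) ^ k • ρ := by
        rw [hvg, ← vsmul_sub, add_sub_cancel_left, Finset.smul_sum, iK_pow]
        refine Finset.sum_congr rfl fun i _ => ?_
        rw [mul_smul]
      rw [h2]
      exact hk.sub (RgV.smul ((Rg.iK z).pow k) hρ).rm
    refine hindm.coef_rm h1 ?_
    intro h3
    have h4 : (kl : ℕ) < m - 1 := h3
    omega
  -- the point y0 has the weight `e kl`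
  have hpos_of : ∀ y : FP 𝒜, Pos (Lk N L0 β (m - 1)) y → y.Pi (e kl) → Pos (Lk N L0 β m) y := by
    intro y hy he
    refine (dich hF hkl hy).resolve_right fun h => ?_
    have h1 := others H hF hkl hy (s := true) (by rwa [sg_true, one_smul]) h (by
      rw [sg_true, one_smul]
      intro h2
      have h3 := congrArg (Lk N L0 β m) h2
      rw [map_neg, hce] at h3
      omega)
    rw [map_neg, hle] at h1
    omega
  have ha0 : y0.Pi (e kl) := by
    obtain ⟨y', n, φ, hC⟩ := exists_curve H y1 hb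
    have h1 : y'.Pi (e kl) := by
      have := hC.ya'
      rwa [neg_neg] at this
    have h2 : Low (Lk N L0 β (m - 1)) y' := by
      intro d mm h hh hne
      rw [hC.nu, map_add, map_nsmul, map_neg, hle, neg_zero, smul_zero, add_zero]
      exact hy1 d mm h hh hne
    have h3 := hpos_of y' ((low_iff H _ y').1 h2) h1
    exact ((same_pi (pos_unique H (Lk N L0 β m) (fun μ hμ => Lk_ne hF hμ) h3 h0) H).2 _).1 h1
  obtain ⟨X, hX, hX0, hX1, hXz⟩ := xf H (Lk N L0 β (m - 1)) y0 y1 ((low_iff H _ y0).2 hl0) hy1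
    hle ha0 hb (fun ψ hψ hne => others H hF hkl hl0 (s := true) (by rwa [sg_true, one_smul]) hψ
      (by rwa [sg_true, one_smul])) hoth1 (fun h => by
        have h1 := ((same_pi h H).2 _).2 hb
        have h2 := h0 _ h1
        rw [map_neg, hce] at h2
        omega)
  obtain ⟨κ, hκ⟩ := prop_line H y1 (Lk N L0 β (m - 1)) hle hene hoth1 hzc hGw hX hGr
    (hXz dz z hzc) (fun h => hX1 (by rw [h]; exact Rg.zero))
  have hroot := hF.root kl true
  have hκX : HK 𝒜 0 (e kl) (κ • X) := hX.smul κ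
  have hv' : HV 𝒜 lam (v - (κ • X) • E kl true) :=
    hv.hv.sub ((hroot.hvE.smul hκX).cast (by rw [vx, sg_true, one_smul, add_sub_cancel_right]))
  have hval0 : Val y0.q (κ • X) 0 := val_zero y0 hκX (hX0.smul κ) (by
    rw [zero_smul]
    exact hene)
  obtain ⟨t', ht'⟩ := hroot.globE.rgV.val
  have hval : ValV y0.q (v - (κ • X) • E kl true) t := by
    have h1 := hv.val.sub (ValV.smul hval0 ht')
    rwa [zero_smul, sub_zero] at h1
  have hRM1 : RM y1.q (Set.range (wf E (m - 1))) (v - (κ • X) • E kl true) := by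
    rw [← hκ]
    refine ⟨∑ i ∈ Finset.univ.erase il, g i • wf E m i, ?_, ?_⟩
    · refine Submodule.sum_mem _ fun i hi => Submodule.smul_mem _ _ (Submodule.subset_span ?_)
      have h1 : i ≠ il := (Finset.mem_erase.1 hi).1
      have h2 : (i.1 : ℕ) < m - 1 := by
        by_contra h3
        apply h1
        apply Subtype.ext
        apply Fin.ext
        have := i.2
        show (i.1 : ℕ) = kl
        omega
      exact ⟨⟨i.1, h2⟩, rfl⟩
    · have h1 : v - g il • E kl true - ∑ i ∈ Finset.univ.erase il, g i • wf E m i = ρ := by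
        have h2 : ∑ i, g i • wf E m i = g il • E kl true +
            ∑ i ∈ Finset.univ.erase il, g i • wf E m i := by
          rw [← Finset.add_sum_erase _ _ (Finset.mem_univ il)]
          rfl
        rw [hvg, h2]
        abel
      rw [h1]
      exact hρ
  refine ⟨v - (κ • X) • E kl true, hv', hval, fun y hy => ?_⟩
  rcases dich hF hkl hy with h | h
  · exact hcase _ hv' hval.rgV y h
  · exact same_RM H (end_unique H hF hkl hy1' hy hb h) hv' (hind y1 hy1') hRM1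

end Vale.Agent.P280.H79
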